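import Vale.Agent.Results.P004.EigenformTwists
import Vale.Agent.P004M.All
import Vale.Agent.P004T.All
import Vale.Agent.P004F.All
import Vale.Agent.P004R.All
import Vale.Agent.P004C.All

/-!
# P004: Goldfeld's conjecture for the quadratic twists of every elliptic curve over `ℚ`
-/

namespace Vale.Agent.Results.P004.AFull

open Vale.Agent.Results.P004.EigenformTwists

/-- **Goldfeld's conjecture** (unconditional). Let `E : y² = x³ + A x + B` be an elliptic curve over
`ℚ`. For every fundamental discriminant `D ≠ 1` the Hasse-Weil `L`-series of `E^(D)` has a unique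
analytic continuation to `Re s ≥ 1`; let `r D` be its order of vanishing at `s = 1`. Then `r D = 0`
and `r D = 1` each have density `1/2`, and the mean of `r D` tends to `1/2`. -/
theorem result (A B : ℤ) (h : 4 * A ^ 3 + 27 * B ^ 2 ≠ 0) :
    ∃ r : ℤ → ℕ, IsEllRank A B r ∧ DensityForm r ∧ MeanForm r 1 := by
  obtain ⟨M, f, c, h1, h2, h3, h4, h5⟩ := Vale.Agent.P004M.modular A B h
  have hf := ef_of (f := f) ⟨h1, h2, h3, h4⟩
  obtain ⟨r, k1, k2, k3⟩ := Vale.Agent.P004T.dens_all
    (Vale.Agent.P004F.conv3 (Vale.Agent.P004R.anchor_red.or Vale.Agent.P004C.anchor_irr)) hf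
    fun _ _ => (Classical.em _).symm
  exact ⟨r, isEllRank_of hf k1 ⟨h, h5⟩, density_iff.2 k2,
    (forms_of (k3 1 le_rfl)).2.2.1 (density_iff.2 k2)⟩

end Vale.Agent.Results.P004.AFull
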