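import Vale.Agent.Results.P004.EigenformTwists
import Vale.Agent.P004M.All

/-!
# P004: analytic ranks of the quadratic twists of every elliptic curve over `ℚ`
-/

namespace Vale.Agent.Results.P004.AllCurves

open Vale.Agent.Results.P004.EigenformTwists

/-- **Analytic ranks of the quadratic twists of every elliptic curve** (unconditional). Let
`E : y² = x³ + A x + B` be an elliptic curve over `ℚ`. For every fundamental discriminant `D ≠ 1` the
Hasse-Weil `L`-series of `E^(D)` has a unique analytic continuation to `Re s ≥ 1`; let `r D` be its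
order of vanishing at `s = 1`. Then `r` has exponentially decreasing tails and bounded moments, it is
odd for one half of the `D`, the density form and the mean form of the conjecture are equivalent,
`r D = 1` for a positive proportion of the `D`, and `r D` is `0` or `2` for a positive proportion. -/
theorem result (A B : ℤ) (h : 4 * A ^ 3 + 27 * B ^ 2 ≠ 0) :
    ∃ r : ℤ → ℕ, IsEllRank A B r ∧ Tails r ∧ Moments r ∧ Parity r ∧
      (∀ k : ℕ, 1 ≤ k → Forms r k) ∧
      PosProp (fun D => r D = 1) ∧ PosProp (fun D => r D = 0 ∨ r D = 2) := by
  obtain ⟨M, f, c, h1, h2, h3, h4, h5⟩ := Vale.Agent.P004M.modular A B h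
  obtain ⟨r, -, k1, k2⟩ := EigenformTwists.result M f c ⟨h1, h2, h3, h4⟩
  exact ⟨r, k1 A B ⟨h, h5⟩, k2⟩

end Vale.Agent.Results.P004.AllCurves
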